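import Vale.Agent.P205.Assembly.Surface
import Vale.Agent.P205.Stage.Final
import Vale.Agent.P205.Stage.FreeStep

/-!
P205, Q1: every closed smooth Riemannian surface has a smooth isometric immersion into four-space.

The three definitions only abbreviate Mathlib notions, for any model space `E` and any target `F`.
-/

noncomputable section

open scoped ContDiff Manifold

namespace Vale.Agent.Results.P205.SurfaceImmersion

section definitions

variable (E : Type) [NormedAddCommGroup E] [NormedSpace ℝ E] (M : Type) [TopologicalSpace M]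
  [ChartedSpace E M]

/-- A smooth Riemannian metric: Mathlib's smooth metric on the tangent bundle. -/
abbrev SmoothMetric [IsManifold 𝓘(ℝ, E) ∞ M] : Type :=
  Bundle.ContMDiffRiemannianMetric 𝓘(ℝ, E) ∞ E (fun p : M => TangentSpace 𝓘(ℝ, E) p)

variable {E M} {F : Type} [NormedAddCommGroup F]

/-- The differential of a map into a normed space, with values in that space. -/
def diff [NormedSpace ℝ F] (f : M → F) (p : M) (v : TangentSpace 𝓘(ℝ, E) p) : F :=
  mfderiv 𝓘(ℝ, E) 𝓘(ℝ, F) f p v

/-- A smooth map that pulls the scalar product back to the metric. -/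
def IsSmoothIsometric [InnerProductSpace ℝ F] [IsManifold 𝓘(ℝ, E) ∞ M]
    (g : SmoothMetric E M) (f : M → F) : Prop :=
  ContMDiff 𝓘(ℝ, E) 𝓘(ℝ, F) ∞ f ∧
    ∀ p (v w : TangentSpace 𝓘(ℝ, E) p), inner ℝ (diff f p v) (diff f p w) = g.inner p v w

end definitions

theorem result (M : Type) [TopologicalSpace M] [ChartedSpace (EuclideanSpace ℝ (Fin 2)) M]
    [IsManifold 𝓘(ℝ, EuclideanSpace ℝ (Fin 2)) ∞ M] [CompactSpace M] [T2Space M]
    (g : SmoothMetric (EuclideanSpace ℝ (Fin 2)) M) :
    ∃ F : M → EuclideanSpace ℝ (Fin 4), IsSmoothIsometric g F :=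
  Vale.Agent.P205.surface_of_trio
    (Vale.Agent.P205.Stage.trio_of_free Vale.Agent.P205.Stage.freeStep) g

end Vale.Agent.Results.P205.SurfaceImmersion
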